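import Mathlib

/-!
Coordinates and stable coordinates of polynomial rings, by generators.
-/

set_option autoImplicit false

namespace Vale.Agent.P295L

/-- `A = ℂ[f, f_2, …, f_N]` for some `f_2, …, f_N` in `A`. -/
def Gen (N : ℕ) {A : Type} [CommRing A] [Algebra ℂ A] (f : A) : Prop :=
  ∃ g : Fin (N - 1) → A, Algebra.adjoin ℂ (insert f (Set.range g)) = ⊤

/-- `f` is a coordinate of `R_n = ℂ[x_1, …, x_n]`. -/
def IsCoord {n : ℕ} (f : MvPolynomial (Fin n) ℂ) : Prop := Gen n f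

/-- `f` is a coordinate of the polynomial ring `R_n[w_1, …, w_m]` in `n + m` variables. -/
def IsStableOfOrder (m : ℕ) {n : ℕ} (f : MvPolynomial (Fin n) ℂ) : Prop :=
  Gen (n + m) (MvPolynomial.C f : MvPolynomial (Fin m) (MvPolynomial (Fin n) ℂ))

/-- `f` is an `m`-stable coordinate for some `m ≥ 1`. -/
def IsStable {n : ℕ} (f : MvPolynomial (Fin n) ℂ) : Prop := ∃ m : ℕ, 1 ≤ m ∧ IsStableOfOrder m f

end Vale.Agent.P295L
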