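import Vale.Agent.P295L74.Defs
import Vale.Agent.P295.U165.Univ

/-!
The two definitions of a coordinate agree.
-/

set_option autoImplicit false

namespace Vale.Agent.P295L

open MvPolynomial

theorem inj_of_surj {A : Type} [CommRing A] [IsNoetherianRing A] (φ : A →+* A)
    (h : Function.Surjective φ) : Function.Injective φ := by
  let K : ℕ →o Ideal A := ⟨fun k => RingHom.ker (φ ^ k), monotone_nat_of_le_succ fun k x hx => by
    rw [RingHom.mem_ker] at hx ⊢
    rw [pow_succ', RingHom.mul_def, RingHom.comp_apply, hx, map_zero]⟩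
  obtain ⟨k, hk⟩ := monotone_stabilizes_iff_noetherian.2 (inferInstance : IsNoetherian A A) K
  rw [injective_iff_map_eq_zero]
  intro x hx
  have h1 : Function.Surjective (φ ^ k : A →+* A) := by
    rw [RingHom.coe_pow]
    exact h.iterate k
  obtain ⟨y, rfl⟩ := h1 x
  have h2 : y ∈ K (k + 1) := by
    show (φ ^ (k + 1)) y = 0
    rw [pow_succ', RingHom.mul_def, RingHom.comp_apply, hx]
  rw [← hk (k + 1) k.le_succ] at h2
  exact h2

theorem gen_iff {A : Type} [CommRing A] [Algebra ℂ A] {N : ℕ} (a : A ≃ₐ[ℂ] MvPolynomial (Fin N) ℂ)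
    (i : Fin N) (f : A) : Gen N f ↔ ∃ e : A ≃ₐ[ℂ] MvPolynomial (Fin N) ℂ, e f = X i := by
  obtain ⟨k, rfl⟩ : ∃ k, N = k + 1 := ⟨N - 1, by have := i.pos; omega⟩
  constructor
  · rintro ⟨g, hg⟩
    let φ : MvPolynomial (Fin (k + 1)) ℂ →ₐ[ℂ] A := aeval (Fin.insertNth i f g)
    have h1 : Function.Surjective φ := by
      rw [← AlgHom.range_eq_top, ← Algebra.adjoin_range_eq_range_aeval, Fin.range_insertNth]
      exact hg
    have h2 := inj_of_surj (a.toAlgHom.comp φ).toRingHom (a.surjective.comp h1)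
    let e := AlgEquiv.ofBijective φ ⟨Function.Injective.of_comp (f := a) h2, h1⟩
    refine ⟨e.symm, e.symm_apply_eq.2 ?_⟩
    show f = φ (X i)
    simp [φ]
  · rintro ⟨e, he⟩
    refine ⟨fun j => e.symm (X (i.succAbove j)), ?_⟩
    have h1 : insert f (Set.range fun j : Fin k => e.symm (X (i.succAbove j))) =
        (e.symm : MvPolynomial (Fin (k + 1)) ℂ →ₐ[ℂ] A) '' Set.range X := by
      rw [← Set.range_comp]
      refine (Fin.range_insertNth i _ _).symm.trans (congrArg _ ?_)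
      funext j
      rcases i.eq_self_or_eq_succAbove j with rfl | ⟨j, rfl⟩
      · rw [Fin.insertNth_apply_same]
        exact e.eq_symm_apply.2 he
      · rw [Fin.insertNth_apply_succAbove]
        rfl
    refine (congrArg _ h1).trans ?_
    rw [← AlgHom.map_adjoin, adjoin_range_X, Algebra.map_top, AlgHom.range_eq_top]
    exact e.symm.surjective

variable {n : ℕ} {f : MvPolynomial (Fin n) ℂ}

theorem coord_iff (i : Fin n) :
    IsCoord f ↔ ∃ e : MvPolynomial (Fin n) ℂ ≃ₐ[ℂ] MvPolynomial (Fin n) ℂ, e f = X i :=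
  gen_iff AlgEquiv.refl i f

/-- the identification of `R_n[w_1, …, w_m]` with `R_{n+m}` -/
noncomputable def flat (n m : ℕ) :
    MvPolynomial (Fin m) (MvPolynomial (Fin n) ℂ) ≃ₐ[ℂ] MvPolynomial (Fin (n + m)) ℂ :=
  (sumAlgEquiv ℂ (Fin m) (Fin n)).symm.trans
    (renameEquiv ℂ ((Equiv.sumComm _ _).trans finSumFinEquiv))

theorem flat_C (m : ℕ) (f : MvPolynomial (Fin n) ℂ) :
    flat n m (C f) = rename (Fin.castAdd m) f := by
  have h : (flat n m).toAlgHom.comp (IsScalarTower.toAlgHom ℂ (MvPolynomial (Fin n) ℂ) _) =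
      rename (Fin.castAdd m) := algHom_ext fun i => by simp [flat]
  exact AlgHom.congr_fun h f

theorem stable_iff (m : ℕ) (i : Fin (n + m)) : IsStableOfOrder m f ↔
    ∃ e : MvPolynomial (Fin (n + m)) ℂ ≃ₐ[ℂ] MvPolynomial (Fin (n + m)) ℂ,
      e (rename (Fin.castAdd m) f) = X i := by
  rw [IsStableOfOrder, gen_iff (flat n m) i, ← flat_C]
  exact ⟨fun ⟨e, he⟩ => ⟨(flat n m).symm.trans e, by simpa using he⟩,
    fun ⟨e, he⟩ => ⟨(flat n m).trans e, he⟩⟩

theorem stable_of_coord (i : Fin n) (h : IsCoord f) (m : ℕ) : IsStableOfOrder m f := by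
  obtain ⟨e, he⟩ := (coord_iff i).1 h
  refine (gen_iff (flat n m) (Fin.castAdd m i) _).2 ⟨(mapAlgEquiv (Fin m) e).trans (flat n m), ?_⟩
  rw [AlgEquiv.trans_apply, mapAlgEquiv_apply, map_C]
  exact (congrArg (fun x => flat n m (C x)) he).trans ((flat_C m _).trans (rename_X _ _))

theorem stable_add {m : ℕ} (i : Fin (n + m)) (h : IsStableOfOrder m f) (k : ℕ) :
    IsStableOfOrder (m + k) f := by
  have h1 := stable_of_coord i ((coord_iff i).2 ((stable_iff m i).1 h)) k
  obtain ⟨e, he⟩ := (stable_iff k (Fin.castAdd k i)).1 h1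
  let c := renameEquiv ℂ (finCongr (add_assoc n m k))
  refine (stable_iff (m + k) (finCongr (add_assoc n m k) (Fin.castAdd k i))).2
    ⟨c.symm.trans (e.trans c), ?_⟩
  have h2 : c.symm (rename (Fin.castAdd (m + k)) f) =
      rename (Fin.castAdd k) (rename (Fin.castAdd m) f) := by
    simp only [c, renameEquiv_symm, renameEquiv_apply, rename_rename]
    rfl
  rw [AlgEquiv.trans_apply, AlgEquiv.trans_apply, h2, he]
  exact rename_X _ _

theorem exists_example (hn : 5 ≤ n) : ∃ f : MvPolynomial (Fin n) ℂ,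
    (∀ m : ℕ, 1 ≤ m → IsStableOfOrder m f) ∧ ¬ IsCoord f := by
  obtain ⟨f, ⟨⟨i, h1⟩, -, h2⟩, -⟩ := P295.U165.universal.{0} n hn
  refine ⟨_, fun m hm => ?_, fun h => h2 ⟨⟨0, by omega⟩, (coord_iff _).1 h⟩⟩
  obtain ⟨k, rfl⟩ := Nat.exists_eq_add_of_le hm
  exact stable_add i ((stable_iff 1 i).2 h1) k

end Vale.Agent.P295L
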